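import Vale.Agent.P088.R2.H606.EP.Al
import Vale.Agent.P088.R2.H606.Z.Ke
import Vale.Agent.P088.R2.H942.Pk.Kz

/-!
# P088, stage 3, zone II: the margin `k` on the package

`X (1 + N² / m²) ≤ k ≤ m` where one of the leaves `z2a`, `z2b` is alive, for every constant `X`
before `CB`.
-/

open Set Filter
open scoped ContDiff Topology Matrix

noncomputable section

namespace Vale.Agent.P088.R2.H238.Z

open Vale.Agent.P088.LR Vale.Agent.P088.HY
open Vale.Agent.P088.R2.H464.Cu (mid dif rq)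
open Vale.Agent.P088.R2.H31.EP Vale.Agent.P088.R2.H606.EP Vale.Agent.P088.R2.H606.Ke
open Vale.Agent.P088.R2.H942.Pk (kz kz_eq Mv Am t0)
open Vale.Agent.P088.R2.H932.EP (mu2_le mu2_pos le_mu2 m1x le_m1x)

variable {n : ℕ} {q : Cst} {d : Pk n} {z : VV n} {u : ℝ}

theorem dl1 : 0 < H313.Mu.dl 1 ∧ H313.Mu.dl 1 ≤ 2 := by
  unfold H313.Mu.dl
  have h1 : (131 / 100 : ℝ) ^ (3 / 2 : ℝ) ≤ (131 / 100 : ℝ) ^ (2 : ℝ) :=
    Real.rpow_le_rpow_of_exponent_le (by norm_num) (by norm_num)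
  have h2 : (131 / 100 : ℝ) ^ (2 : ℝ) = (131 / 100) ^ 2 := by norm_cast
  rw [h2] at h1
  have h3 : (0 : ℝ) < (131 / 100 : ℝ) ^ (3 / 2 : ℝ) := by positivity
  constructor
  · linarith
  · nlinarith

theorem Am_bd : 0 < Am ∧ Am ≤ 3 := by
  have := dl1
  unfold Am
  constructor <;> linarith [this.1, this.2]

theorem kz_kf (q : Cst) (d : Pk n) (z : VV n) :
    kz q d z = kf (1 / 10 ^ 9) (d.m q z) (d.Kf q z) (Mv q (d.l (mid z))) (q.σ * q.R⁻¹) := by
  rw [kz_eq]
  unfold kf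
  ring

/-- **The zone `E ≤ N^{133/50}`.** -/
theorem slp_b (h : PkOk q d) (m : Nm q) (bg : Nb q ^ (133 / 50 : ℝ) < Real.exp (11 / 10 * q.R))
    (hu : u ≤ d.uta q) (h1 : deriv d.Φ u ≤ q.aC * Real.exp u)
    (h2 : Real.exp u ≤ deriv d.Φ u ^ (133 / 50 : ℝ)) :
    deriv d.Φ u ^ (9 / 10 : ℝ) ≤ deriv (deriv d.Φ) u := by
  have hN := N_pos h m u
  have hE := Real.exp_pos u
  have hMN := N_ge h u
  have hM := m.M1
  have a0 := m.a0
  have h9 : deriv d.Φ u ^ (9 / 10 : ℝ) * deriv d.Φ u ^ (1 / 10 : ℝ) = deriv d.Φ u := by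
    rw [← Real.rpow_add hN]; norm_num
  have h10 : 10 / 9 ≤ deriv d.Φ u ^ (1 / 10 : ℝ) :=
    m.M3.trans (Real.rpow_le_rpow (by linarith) hMN (by norm_num))
  have h11 : deriv d.Φ u ^ (9 / 10 : ℝ) ≤ 9 / 10 * deriv d.Φ u := by
    have := Real.rpow_pos_of_pos hN (9 / 10)
    nlinarith
  rcases le_total u (d.uth q / 2) with h3 | h3
  · have e1 := h.top.e1 u h3
    have e2 := h.top.e2 u h3
    rcases le_total (q.ν₁ * Real.exp u) (deriv d.Φ u) with h4 | h4
    · refine h11.trans ?_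
      have h5 : deriv d.Φ u ≤ q.nm * Real.exp u := by
        have := m.a1
        have := m.a2
        nlinarith
      rw [e1] at h4 h5
      have h6 := h.ph.isΦ.p1 u h4 h5
      rw [e2, e1, h6]
    · have h5 : Real.exp u ≤ 1 * deriv d.Φ u ^ (133 / 50 : ℝ) := by rwa [one_mul]
      rw [e1] at h4 h5
      have h6 := h.ph.isΦ.p2 u h4 h5
      rw [← e1, ← e2] at h6
      have h7 : 0 ≤ 1 / q.aC * deriv d.Φ u ^ 2 / Real.exp u := by positivity
      linarith
  · rcases le_total u (d.uth q) with h4 | h4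
    · exfalso
      have h5 := N_le_Nb h m h4
      have h6 : deriv d.Φ u ^ (133 / 50 : ℝ) ≤ Nb q ^ (133 / 50 : ℝ) :=
        Real.rpow_le_rpow hN.le h5 (by norm_num)
      have h7 : Real.exp (11 / 10 * q.R) ≤ Real.exp u := by
        rw [Real.exp_le_exp]
        have := l0_ge' h m
        unfold Pk.uth at h3
        linarith
      linarith
    · refine h11.trans ?_
      rw [K_rev h h4 hu]
      linarith

/-- `N ≤ Nb e^(2 (u - uth))` on the reverse pass, `N ≤ Nb` before. -/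
theorem N_le_max (h : PkOk q d) (m : Nm q) (hu : u ≤ d.uta q) :
    deriv d.Φ u ≤ Nb q * max 1 (Real.exp (2 * (u - d.uth q))) := by
  have h0 := N_le_Nb h m (u := d.uth q) le_rfl
  have h1 := N_pos h m (d.uth q)
  have hb : 0 ≤ Nb q := by linarith
  rcases le_total u (d.uth q) with h2 | h2
  · exact (N_le_Nb h m h2).trans (le_mul_of_one_le_right hb (le_max_left _ _))
  · rw [N_rev h m h2 hu]
    have h3 := Real.exp_pos (2 * (u - d.uth q))
    calc deriv d.Φ (d.uth q) * Real.exp (2 * (u - d.uth q)) ≤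
          Nb q * Real.exp (2 * (u - d.uth q)) := mul_le_mul_of_nonneg_right h0 h3.le
      _ ≤ _ := mul_le_mul_of_nonneg_left (le_max_right _ _) hb

/-- The thresholds. -/
structure Kn (n : ℕ) (X : ℝ) (q : Cst) : Prop extends Zn n 1 1 q where
  Xn : 0 ≤ X
  w : ∀ N K m M S : ℝ, q.M₀ ≤ N → 0 < m → 0 ≤ M → 0 ≤ S → N ^ (9 / 10 : ℝ) ≤ K →
    (q.cK * K ≤ m ∨ N ^ (169 / 250 : ℝ) / 2 ≤ m) →
    X * (1 + N ^ 2 / m ^ 2) ≤ kf (1 / 10 ^ 9) m K M S
  mu : ∀ N K m M S E s : ℝ, q.M₀ ≤ E → 1 ≤ N → N ^ (66 / 25 : ℝ) ≤ E → 0 < K → 0 ≤ S →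
    E ^ (13 / 50 : ℝ) / 2 ≤ m → 0 < s → s ≤ Real.log E → Am / 2 * s ^ (-(5 / 2) : ℝ) ≤ M →
    X * (1 + N ^ 2 / m ^ 2) ≤ kf (1 / 10 ^ 9) m K M S
  cb : 4 * X ≤ 1 / 10 ^ 9 * q.CB
  e5 : Real.exp 5 ≤ q.M₀
  M9 : 3 * Real.exp 500 ≤ q.M₀ ^ (226 / 100 : ℝ)
  R13 : 13 ≤ q.R

variable {X : ℝ}

theorem Kn.l_ge (k : Kn n X q) (h : PkOk q d) (hz : Z2 q d z) :
    2 ≤ d.l (mid z) ∧ d.l (mid z) ≤ d.u q z ∧ d.u q z ≤ 2 * d.l (mid z) + 1 / 2 ∧
      5 ≤ d.u q z := by
  have A := al h k.toZn hz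
  have hM := k.M1
  have hMN : q.M₀ ≤ d.N q z := N_ge h _
  have hN : d.N q z ≤ q.aC * d.E q z := A.Na
  have a1 := k.a1
  have hE : 0 < d.E q z := Real.exp_pos _
  have h1 : Real.exp 5 ≤ d.E q z := by nlinarith [k.e5]
  have h2 : 5 ≤ d.u q z := by
    unfold Pk.E at h1
    exact Real.exp_le_exp.1 h1
  have h3 := abs_le.1 A.lo.um
  refine ⟨by linarith, by linarith, by linarith, h2⟩

/-- **The upper bound.** -/
theorem Kn.le (k : Kn n X q) (h : PkOk q d) (hz : Z2 q d z) : kz q d z ≤ d.m q z := by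
  obtain ⟨l1, -, -, -⟩ := k.l_ge h hz
  have A := al h k.toZn hz
  have hm : 0 < d.m q z := lt_of_lt_of_le (by linarith [k.X0]) A.mX
  have hK : 0 < d.Kf q z := K_pos h _
  have hR : 0 < q.R := by linarith [k.R1]
  have hσ := k.σ0
  have hA := Am_bd
  rw [kz_kf]
  unfold kf
  have h1 : d.Kf q z / (d.Kf q z + d.m q z) ≤ 1 := by
    rw [div_le_one (by linarith)]; linarith
  have h2 : q.σ * q.R⁻¹ ≤ 1 := by
    rw [← div_eq_mul_inv, div_le_one hR]
    have := k.σ1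
    have := k.R1
    linarith
  have h3 : Mv q (d.l (mid z)) ≤ 3 := by
    unfold Mv
    refine (mu2_le hA.1 (by linarith)).trans ?_
    have h4 : d.l (mid z) ^ (-(5 / 2) : ℝ) ≤ 1 :=
      Real.rpow_le_one_of_one_le_of_nonpos (by linarith) (by norm_num)
    have h5 : 0 ≤ d.l (mid z) ^ (-(5 / 2) : ℝ) := Real.rpow_nonneg (by linarith) _
    nlinarith
  have h4 : 1 / 10 ^ 9 * d.m q z * (d.Kf q z / (d.Kf q z + d.m q z) + Mv q (d.l (mid z)) +
      q.σ * q.R⁻¹) ≤ 1 / 10 ^ 9 * d.m q z * 5 :=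
    mul_le_mul_of_nonneg_left (by linarith) (by positivity)
  refine h4.trans ?_
  have : (1 : ℝ) / 10 ^ 9 * d.m q z * 5 = 5 / 10 ^ 9 * d.m q z := by ring
  rw [this]
  have : (5 : ℝ) / 10 ^ 9 ≤ 1 := by norm_num
  nlinarith

/-- **The lower bound.** -/
theorem Kn.ge (k : Kn n X q) (h : PkOk q d) (hz : Z2 q d z) :
    X * (1 + d.N q z ^ 2 / d.m q z ^ 2) ≤ kz q d z := by
  obtain ⟨l1, l2, l3, l4⟩ := k.l_ge h hz
  have A := al h k.toZn hz
  have hm : 0 < d.m q z := lt_of_lt_of_le (by linarith [k.X0]) A.mX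
  have hK : 0 < d.Kf q z := K_pos h _
  have hR : 0 < q.R := by linarith [k.R1]
  have hσ := k.σ0
  have hA := Am_bd
  have hMN : q.M₀ ≤ d.N q z := N_ge h _
  have hM := k.M1
  have hN : 0 < d.N q z := by linarith
  have hE : 0 < d.E q z := Real.exp_pos _
  have hCB : 0 < q.CB := by linarith [k.nr.CB1]
  have hS : 0 ≤ q.σ * q.R⁻¹ := by positivity
  have hMv : 0 ≤ Mv q (d.l (mid z)) := (mu2_pos hA.1 (by linarith)).le
  rw [kz_kf]
  rcases A.ab with ⟨hC, h2⟩ | ⟨hB, h2⟩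
  · have h3 := (slp_a h k.toNm A.ta A.Na hC).1
    exact k.w _ _ _ _ _ hMN hm hMv hS h3 (Or.inl h2)
  · have hx := d.ξ_is q
    have hc : 0 < q.σ / (q.CB * q.R) := by positivity
    have h3 := (le_m1x hc hx (d.u q z)).trans h2
    have e2 : d.E q z ^ (13 / 50 : ℝ) = Real.exp (26 / 100 * d.u q z) := by
      unfold Pk.E
      rw [← Real.exp_mul]
      congr 1
      ring
    rcases le_total (Real.exp (26 / 100 * d.u q z)) (q.σ / (q.CB * q.R) * d.ξ q (d.u q z))⁻¹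
      with h4 | h4
    · -- `m ≥ E^{13/50} / 2`
      rw [min_eq_left h4] at h3
      have h5 : d.E q z ^ (13 / 50 : ℝ) / 2 ≤ d.m q z := by rw [e2]; linarith
      rcases le_total (d.E q z) (d.N q z ^ (66 / 25 : ℝ)) with h6 | h6
      · have h7 : d.E q z ≤ d.N q z ^ (133 / 50 : ℝ) :=
          h6.trans (Real.rpow_le_rpow_of_exponent_le (by linarith) (by norm_num))
        have h8 := slp_b h k.toNm k.bg A.ta A.Na h7
        refine k.w _ _ _ _ _ hMN hm hMv hS h8 (Or.inr ?_)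
        have h9 := E_pow h k.toZn hB
        linarith
      · refine k.mu (d.N q z) (d.Kf q z) (d.m q z) (Mv q (d.l (mid z))) (q.σ * q.R⁻¹) (d.E q z)
          (d.l (mid z)) ?_ (by linarith) h6 hK hS h5 (by linarith) ?_ ?_
        · have : d.N q z ≤ d.E q z := by
            have := A.Na
            have := k.a1
            nlinarith
          linarith
        · unfold Pk.E
          rw [Real.log_exp]; exact l2
        · refine le_mu2 hA.1 (by linarith) ?_
          -- `l (mid z) ≥ 1.32 log M₀ - 1/4`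
          have hlogM : 0 ≤ Real.log q.M₀ := Real.log_nonneg (by linarith)
          have h7 : 66 / 25 * Real.log q.M₀ ≤ d.u q z := by
            have h8 : q.M₀ ^ (66 / 25 : ℝ) ≤ d.E q z :=
              (Real.rpow_le_rpow (by linarith) hMN (by norm_num)).trans h6
            have h9 := Real.log_le_log (Real.rpow_pos_of_pos (by linarith) _) h8
            rw [Real.log_rpow (by linarith)] at h9
            unfold Pk.E at h9
            rwa [Real.log_exp] at h9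
          have h8 : -(400 * (d.l (mid z) - t0 q)) ≤ 500 - 226 / 100 * Real.log q.M₀ := by
            unfold t0 H313.Mu.sz
            linarith
          have h9 : Real.exp (-(400 * (d.l (mid z) - t0 q))) ≤ 1 / 3 := by
            refine (Real.exp_le_exp.2 h8).trans ?_
            rw [Real.exp_sub, div_le_iff₀ (Real.exp_pos _)]
            have h10 : Real.exp (226 / 100 * Real.log q.M₀) = q.M₀ ^ (226 / 100 : ℝ) := by
              rw [Real.rpow_def_of_pos (by linarith), mul_comm]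
            rw [h10]
            linarith [k.M9]
          refine h9.trans ?_
          have h10 : 1 ≤ d.l (mid z) ^ (5 / 2 : ℝ) := Real.one_le_rpow (by linarith) (by norm_num)
          rw [div_le_div_iff₀ (by norm_num) hA.1]
          linarith [hA.2]
    · -- `m ≥ CB R / (2 σ ξ)`
      rw [min_eq_right h4] at h3
      have x1 := hx.le (d.u q z)
      have x0 := hx.pos (d.u q z)
      have e3 : (q.σ / (q.CB * q.R) * d.ξ q (d.u q z))⁻¹ =
          q.CB * q.R / q.σ * (d.ξ q (d.u q z))⁻¹ := by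
        rw [mul_inv, inv_div]
      rw [e3] at h3
      have hcr : 0 < q.CB * q.R / q.σ := by positivity
      have x2 : 1 ≤ (d.ξ q (d.u q z))⁻¹ := (one_le_inv₀ x0).2 x1
      have h5 : q.CB * q.R / q.σ ≤ q.CB * q.R / q.σ * (d.ξ q (d.u q z))⁻¹ :=
        le_mul_of_one_le_right hcr.le x2
      refine ke_S (by norm_num) hm hK hMv k.Xn hN.le ?_ ?_ k.cb
      · -- `N ≤ m`
        have h6 := N_le_max h k.toNm A.ta
        have h7 : max 1 (Real.exp (2 * (d.u q z - d.uth q))) ≤ (d.ξ q (d.u q z))⁻¹ := by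
          refine max_le x2 ?_
          rcases le_total (d.u q z) (d.uth q) with h8 | h8
          · exact (Real.exp_le_one_iff.2 (by linarith)).trans x2
          · have h9 : d.uf q + 1 ≤ d.u q z := by
              have : d.uf q + 1 ≤ d.uth q := by
                unfold Pk.uf Pk.uth
                linarith [k.R13]
              linarith
            rw [hx.ex _ h9, ← Real.exp_neg, neg_neg, Real.exp_le_exp]
            unfold Pk.uf
            unfold Pk.uth at h8 ⊢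
            linarith
        have hb : 0 ≤ Nb q := by
          have := N_le_Nb h k.toNm (u := d.uth q) le_rfl
          have := N_pos h k.toNm (d.uth q)
          linarith
        have h8 : Nb q ≤ 1 / 2 * (q.CB * q.R / q.σ) := by
          have := k.X4
          rw [← le_div_iff₀ hσ] at this
          linarith
        calc d.N q z ≤ Nb q * max 1 (Real.exp (2 * (d.u q z - d.uth q))) := h6
          _ ≤ Nb q * (d.ξ q (d.u q z))⁻¹ := mul_le_mul_of_nonneg_left h7 hb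
          _ ≤ 1 / 2 * (q.CB * q.R / q.σ) * (d.ξ q (d.u q z))⁻¹ :=
            mul_le_mul_of_nonneg_right h8 (by positivity)
          _ ≤ _ := by linarith
      · have h6 : 1 / 2 * (q.CB * q.R / q.σ) ≤ d.m q z := by linarith
        have h7 := mul_le_mul_of_nonneg_left h6 hS
        have e4 : q.σ * q.R⁻¹ * (1 / 2 * (q.CB * q.R / q.σ)) = q.CB / 2 := by
          field_simp
        rw [e4] at h7
        exact h7

theorem NB_M (X : Cst → ℝ) (hX : NB_CB X) : NB_M₀ X := fun q => by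
  have h1 := hX q
  have h2 := hX q.b_M₀
  have e : q.b_M₀.b_CB = q.b_CB := rfl
  rw [← h2, e, h1]

/-- The thresholds exist. -/
theorem evKn (hn : 1 ≤ n) (X : Cst → ℝ) (hX : NB_CB X) (hp : ∀ q, 0 ≤ X q) :
    EvC fun q => Kn n (X q) q := by
  have hXM := NB_M X hX
  have a0 := evZn hn (one_pos : (0 : ℝ) < 1) (fun _ => 1) (fun _ => rfl) fun _ => le_rfl
  have a1 : EvC fun q => ∀ N K m M S : ℝ, q.M₀ ≤ N → 0 < m → 0 ≤ M → 0 ≤ S →
      0 < q.cK → N ^ (9 / 10 : ℝ) ≤ K → (q.cK * K ≤ m ∨ N ^ (169 / 250 : ℝ) / 2 ≤ m) →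
      X q * (1 + N ^ 2 / m ^ 2) ≤ kf (1 / 10 ^ 9) m K M S := by
    have h := EvC.at_M₀ (fun q t => ∀ N K m M S : ℝ, t ≤ N → 0 < m → 0 ≤ M → 0 ≤ S →
      0 < q.cK → N ^ (9 / 10 : ℝ) ≤ K → (q.cK * K ≤ m ∨ N ^ (169 / 250 : ℝ) / 2 ≤ m) →
      X q * (1 + N ^ 2 / m ^ 2) ≤ kf (1 / 10 ^ 9) m K M S) fun q => by
        by_cases hk : 0 < q.cK
        · obtain ⟨N₀, -, h2⟩ := ke_win (c₁ := 1 / 10 ^ 9) (C := X q) (cl := q.cK) (by norm_num) hk
          filter_upwards [eventually_ge_atTop N₀] with t ht N K m M S a1 a2 a3 a4 _ a5 a6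
          exact h2 N K m M S (ht.trans a1) a2 a3 a4 a5 a6
        · exact Eventually.of_forall fun t N K m M S _ _ _ _ a5 => absurd a5 hk
    refine h.mono fun q hq => ?_
    have e : q.b_M₀.cK = q.cK := rfl
    rw [hXM q, e] at hq
    exact hq
  have a2 : EvC fun q => ∀ N K m M S E s : ℝ, q.M₀ ≤ E → 1 ≤ N → N ^ (66 / 25 : ℝ) ≤ E →
      0 < K → 0 ≤ S → E ^ (13 / 50 : ℝ) / 2 ≤ m → 0 < s → s ≤ Real.log E →
      Am / 2 * s ^ (-(5 / 2) : ℝ) ≤ M → X q * (1 + N ^ 2 / m ^ 2) ≤ kf (1 / 10 ^ 9) m K M S := by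
    have h := EvC.at_M₀ (fun q t => ∀ N K m M S E s : ℝ, t ≤ E → 1 ≤ N →
      N ^ (66 / 25 : ℝ) ≤ E → 0 < K → 0 ≤ S → E ^ (13 / 50 : ℝ) / 2 ≤ m → 0 < s →
      s ≤ Real.log E → Am / 2 * s ^ (-(5 / 2) : ℝ) ≤ M →
      X q * (1 + N ^ 2 / m ^ 2) ≤ kf (1 / 10 ^ 9) m K M S) fun q => by
        obtain ⟨E₀, -, h2⟩ := ke_mu (c₁ := 1 / 10 ^ 9) (C := X q) (A := Am / 2) (by norm_num)
          (hp q) (by linarith [Am_bd.1])
        filter_upwards [eventually_ge_atTop E₀] with t ht N K m M S E s b1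
        exact h2 N K m M S E s (ht.trans b1)
    refine h.mono fun q hq => ?_
    rw [hXM q] at hq
    exact hq
  have a3 : EvC fun q => 4 * X q ≤ 1 / 10 ^ 9 * q.CB := by
    have h : EvC fun q => 4 * X q.b_CB ≤ 1 / 10 ^ 9 * q.CB :=
      EvC.at_CB (fun q t => 4 * X q ≤ 1 / 10 ^ 9 * t) fun q =>
        (tendsto_id.const_mul_atTop (by norm_num : (0 : ℝ) < 1 / 10 ^ 9)).eventually_ge_atTop _
    refine h.mono fun q hq => ?_
    rwa [hX q] at hq
  have a4 := ev_M₀ (fun _ => Real.exp 5) fun _ => rfl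
  have a5 := ev_rpow (e := 226 / 100) (by norm_num) (fun _ => 3 * Real.exp 500) fun _ => rfl
  have a6 := ev_R (fun _ => 13) fun _ => rfl
  refine ((a0.and a1).and ((a2.and a3).and (a4.and (a5.and a6)))).mono ?_
  rintro q ⟨⟨b0, b1⟩, ⟨b2, b3⟩, b4, b5, b6⟩
  exact ⟨b0, hp q, fun N K m M S c1 c2 c3 c4 c5 c6 => b1 N K m M S c1 c2 c3 c4 b0.k0 c5 c6, b2, b3,
    b4, b5, b6⟩

/-- **Row KE.** -/
theorem ke (hn : 1 ≤ n) (X : Cst → ℝ) (hX : NB_CB X) : EvC fun q => ∀ d : Pk n, PkOk q d → ∀ z,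
    d.ch q .z2a z ≠ 0 ∨ d.ch q .z2b z ≠ 0 →
      X q * (1 + d.N q z ^ 2 / d.m q z ^ 2) ≤ kz q d z ∧ kz q d z ≤ d.m q z := by
  refine (evKn hn (fun q => |X q|) (fun q => by show |X q.b_CB| = |X q|; rw [hX q])
    fun q => abs_nonneg _).mono ?_
  intro q k d h z hz
  refine ⟨?_, k.le h hz⟩
  refine le_trans (mul_le_mul_of_nonneg_right (le_abs_self _) ?_) (k.ge h hz)
  positivity

end Vale.Agent.P088.R2.H238.Z
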