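import Vale.Agent.P088.R2.H870.Z2.Lit
import Vale.Agent.P088.R2.H814.B2.Pz5
import Vale.Agent.P088.R2.H238.Z.KeP

/-!
# P088, stage 3, zone II: the cut-offs on the package

The structures `Cut` and `KZ2` of helper870 for the literal functions, for an arbitrary cut-off
`χ` with its own letter `Zc`.
-/

open Set Filter
open scoped ContDiff Topology Matrix

noncomputable section

namespace Vale.Agent.P088.R2.H238.Z

open Vale.Agent.P088.LR Vale.Agent.P088.HY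
open Vale.Agent.P088.R2.H464.Cu (mid dif rq)
open Vale.Agent.P088.R2.H31.EP Vale.Agent.P088.R2.H606.EP
open Vale.Agent.P088.R2.H942.Pk (kz)
open Vale.Agent.P088.R2.H475.Z (frx fry)
open Vale.Agent.P088.R2.H867.Z (Zc Zc_nn sq1 sqp sq1_nn sqp_nn dx_le dy_le cut_of)
open Vale.Agent.P088.R2.H870.Z2 (Cut KZ2 kz2_of cKZ KO2 gz ez zz)
open Vale.Agent.P088.R2.H814.An (U2 kbP Kkb Kkb_one Zq')
open Vale.Agent.P088.R2.H961.GW (Dx_one Dy_one)

variable {n : ℕ} {q : Cst} {d : Pk n} {z : VV n} {χ : VV n → ℝ}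

/-- The cost letter of a cut-off. -/
def Zx (K : ℝ) (q : Cst) (d : Pk n) (χ : VV n → ℝ) : VV n → ℝ :=
  Zc K 1 (rq (gi d.s₁)) (d.E q) (d.N q) (kz q d) χ

theorem sxD (d : Pk n) (i : Fin n) (f : VV n → ℝ) (z : VV n) : d.sx.D i f z = dx i f z :=
  congrFun (Dx_one i f) z

theorem syD (d : Pk n) (i : Fin n) (f : VV n → ℝ) (z : VV n) : d.sy.D i f z = dy i f z :=
  congrFun (Dy_one i f) z

/-- The numbers at a point. -/
structure Cn (q : Cst) (d : Pk n) (z : VV n) : Prop where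
  r0 : 0 < rq (gi d.s₁) z
  k0 : 0 < kz q d z
  km : kz q d z ≤ d.m q z
  m1 : 1 ≤ d.m q z
  N0 : 0 ≤ d.N q z

theorem Cn.r2 (c : Cn q d z) : 0 < d.r2 z := by
  have := c.r0
  unfold Pk.r2 H31.EP.r2
  linarith

theorem Cn.m_eq (z : VV n) : d.m q z = d.E q z * d.r2 z := rfl

/-- **The field `ct`.** -/
theorem cut_pk {ν A η K : ℝ} (c : Cn q d z) (hη : 0 < η) (hK : 2 * KO2 ν A ≤ K * η) :
    Cut d.sx d.sy χ (kz q d) (Zx K q d χ) ν A η (d.E q z) (d.N q z) √(d.r2 z)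
      √(d.r2 z * sq1 χ z) √(sqp χ z) z := by
  have h := cut_of (σ := d.sx) (τ := d.sy) (ρ := rq (gi d.s₁)) (k := kz q d) (χ := χ)
    (EE := d.E q) (NN := d.N q) (ν := ν) (A := A) (η := η) (z := z)
    (fun i => sxD d i χ z) (fun i => syD d i χ z) hη c.r0 c.k0
  refine ⟨h.cb, h.d0, h.dp0, h.k0, h.le.trans ?_⟩
  refine mul_le_mul_of_nonneg_right ?_ (mul_pos hη c.k0).le
  unfold Zx Zc
  have h1 := sq1_nn χ z
  have h2 := sqp_nn χ z
  have h3 := c.r0
  have h4 := c.k0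
  set Q := 2 * rq (gi d.s₁) z * sq1 χ z *
    (1 + (d.N q z + kz q d z) / (d.E q z * (2 * rq (gi d.s₁) z))) ^ 2 + sqp χ z with hQ
  have hQ0 : 0 ≤ Q := by positivity
  rw [one_mul, div_le_div_iff₀ (by positivity) h4]
  calc 2 * KO2 ν A * Q * kz q d z = 2 * KO2 ν A * (Q * kz q d z) := by ring
    _ ≤ K * η * (Q * kz q d z) := mul_le_mul_of_nonneg_right hK (by positivity)
    _ = K * Q * (η * kz q d z) := by ring

/-- `ζ² r² ≤ 4 L`. -/
theorem zz_le {L : ℝ} (hL : 0 ≤ L) (c : Cn q d z) : zz L q d z ^ 2 * √(d.r2 z) ^ 2 ≤ 4 * L := by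
  have hE : 0 < d.E q z := Real.exp_pos _
  have hr := c.r2
  have hm : 0 < d.m q z := by linarith [c.m1]
  have hg : 0 ≤ gz q d z := by unfold gz; positivity
  unfold zz
  rw [Real.sq_sqrt (mul_nonneg hL hg), Real.sq_sqrt hr.le]
  unfold gz
  have e : L * (4 * d.E q z / (1 + d.m q z)) * d.r2 z = 4 * L * (d.m q z / (1 + d.m q z)) := by
    rw [Cn.m_eq]; ring
  rw [e]
  refine mul_le_of_le_one_right (by positivity) ?_
  rw [div_le_one (by linarith)]; linarith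

/-- **The condition `KZ2`.** -/
theorem kz2_pk {K L : ℝ} (zq : Zq' n q) (pk : PkOk q d) (hU : z ∈ U2 q d) (c : Cn q d z)
    (hL : 0 ≤ L) (hK : cKZ (Fintype.card (Fin n)) (Fintype.card (Fin n)) (Kkb n q.ph) (4 * L) ≤ K) :
    KZ2 d.sx d.sy (frx d.s₁) (fry d.s₂) (d.W q) χ (zz L q d) (ez q d) (Zx K q d χ) z := by
  have b := kbP zq pk hU
  have hE : 0 < d.E q z := Real.exp_pos _
  have hr := c.r2
  have hr' : 0 < √(d.r2 z) := Real.sqrt_pos.2 hr
  have h1 := sq1_nn χ z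
  have h2 := sqp_nn χ z
  have hK1 := Kkb_one n q.ph
  have hcK : 0 ≤ cKZ (Fintype.card (Fin n)) (Fintype.card (Fin n)) (Kkb n q.ph) (4 * L) := by
    unfold cKZ; positivity
  have hK0 : 0 ≤ K := hcK.trans hK
  have k0 := c.k0
  have hN := c.N0
  have e0 : √(d.r2 z * sq1 χ z) / √(d.r2 z) = √(sq1 χ z) := by
    rw [Real.sqrt_mul hr.le]
    field_simp
  refine kz2_of (lam := zz L q d z ^ 2 * √(d.r2 z) ^ 2) b hr' hE hK1 rfl (zz_le hL c)
    (d₀ := √(d.r2 z * sq1 χ z)) (Real.sqrt_nonneg _) (fun i => ?_) (fun i => ?_) ?_ ?_ ?_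
  · rw [sxD, e0]; exact dx_le χ z i
  · rw [syD, e0]; exact dy_le χ z i
  · unfold ez
    have := sq_nonneg (d.E q z)
    linarith
  · exact Zc_nn hK0 zero_le_one c.r0.le k0.le
  · rw [Real.sq_sqrt (mul_nonneg hr.le h1), Real.sq_sqrt hr.le, ← Cn.m_eq]
    have hm := c.m1
    have hm0 : 0 < d.m q z := by linarith
    have e1 : (2 : ℝ) * rq (gi d.s₁) z = d.r2 z := rfl
    unfold Zx Zc
    rw [e1, one_mul]
    have hM : 1 ≤ (1 + (d.N q z + kz q d z) / (d.E q z * d.r2 z)) ^ 2 := by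
      refine one_le_pow₀ ?_
      have : 0 ≤ (d.N q z + kz q d z) / (d.E q z * d.r2 z) := by positivity
      linarith
    have hQ : d.r2 z * sq1 χ z ≤ d.r2 z * sq1 χ z *
        (1 + (d.N q z + kz q d z) / (d.E q z * d.r2 z)) ^ 2 + sqp χ z := by
      have h3 : 0 ≤ d.r2 z * sq1 χ z := mul_nonneg hr.le h1
      have := mul_le_mul_of_nonneg_left hM h3
      linarith
    have hkm : 1 / d.m q z ≤ 1 / kz q d z := one_div_le_one_div_of_le k0 c.km
    calc cKZ (Fintype.card (Fin n)) (Fintype.card (Fin n)) (Kkb n q.ph) (4 * L) *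
          (d.r2 z * sq1 χ z)
        ≤ K * (d.r2 z * sq1 χ z) := mul_le_mul_of_nonneg_right hK (mul_nonneg hr.le h1)
      _ ≤ K * (d.r2 z * sq1 χ z) * d.m q z :=
          le_mul_of_one_le_right (by positivity) hm
      _ = K * (d.r2 z * sq1 χ z) * (1 / d.m q z) * d.m q z ^ 2 := by field_simp
      _ ≤ K * (d.r2 z * sq1 χ z *
        (1 + (d.N q z + kz q d z) / (d.E q z * d.r2 z)) ^ 2 + sqp χ z) * (1 / kz q d z) *
          d.m q z ^ 2 := by gcongr
      _ = _ := by ring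

/-! ## At the alive points -/

/-- `u < uta`. -/
theorem u_lt (h : PkOk q d) (m : Nm q) {u : ℝ} (hu : u ≤ d.uta q)
    (hN : deriv d.Φ u ≤ q.aC * Real.exp u) : u < d.uta q := by
  rcases hu.lt_or_eq with h1 | h1
  · exact h1
  · exfalso
    have l0 := l0_ge' h m
    have l1 := l0_le' h m
    have hR := m.R1
    have hR2 := m.R2
    have hM := m.M1
    have a1 := m.a1
    have e1 : deriv d.Φ (d.uta q) = deriv d.Φ (d.uth q) * Real.exp (2 * (d.uta q - d.uth q)) :=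
      N_rev h m (uth_ta h m) le_rfl
    have e2 : 4 ≤ deriv d.Φ (d.uth q) := by linarith [N_ge h (d.uth q)]
    have e4 : Real.exp (d.uta q) ≤ Real.exp (2 * (d.uta q - d.uth q)) := by
      rw [Real.exp_le_exp]
      unfold Pk.uta Pk.uth
      linarith
    have e5 := Real.exp_pos (d.uta q)
    have e6 := Real.exp_pos (2 * (d.uta q - d.uth q))
    rw [h1, e1] at hN
    nlinarith

/-- The thresholds. -/
structure Ku (n : ℕ) (X : ℝ) (q : Cst) : Prop extends Kn n X q where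
  XX : 1 ≤ X
  zq : Zq' n q
  zh : Zn n (1 / 2) 1 q
  c8 : q.c₀ ≤ 1 / 8
  c00 : 0 < q.c₀

variable {X : ℝ}

/-- **The numbers at the alive points.** -/
theorem Ku.cn (k : Ku n X q) (h : PkOk q d) (hz : Z2 q d z) : Cn q d z := by
  have A := al h k.toZn hz
  have h1 := k.toKn.ge h hz
  have h2 := k.toKn.le h hz
  have h3 : 0 ≤ d.N q z ^ 2 / d.m q z ^ 2 := by positivity
  have h4 : 1 ≤ kz q d z := by
    have := k.XX
    nlinarith
  have h5 := A.r0
  refine ⟨?_, by linarith, h2, by linarith, (N_pos h k.toNm _).le⟩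
  unfold Pk.r2 H31.EP.r2 at h5
  linarith

/-- **The alive points are in the region of helper814.** -/
theorem Ku.u2 (k : Ku n X q) (h : PkOk q d) (hz : Z2 q d z) : z ∈ U2 q d := by
  have A := al h k.zh hz
  have hE : 0 < d.E q z := Real.exp_pos _
  have hr := A.r0
  have hN := N_pos h k.toNm (d.u q z)
  have c8 := k.c8
  have c0 := k.c00
  refine ⟨⟨?_, u_lt h k.toNm A.ta A.Na⟩, ?_⟩
  · have := A.r4
    nlinarith
  · have h1 := A.NE
    have e : d.E q z * d.m q z = (d.E q z * √(d.r2 z)) ^ 2 := by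
      rw [mul_pow, Real.sq_sqrt hr.le, Cn.m_eq]; ring
    rw [e] at h1
    have h2 : 0 < d.E q z * √(d.r2 z) := mul_pos hE (Real.sqrt_pos.2 hr)
    have h4 : d.N q z ≤ 1 / 2 * (d.E q z * √(d.r2 z)) := by
      refine abs_le_of_sq_le_sq' ?_ (by positivity) |>.2
      rw [mul_pow]; exact h1
    linarith

/-- The thresholds exist. -/
theorem evKu (hn : 1 ≤ n) (X : Cst → ℝ) (hX : NB_CB X) (hp : ∀ q, 1 ≤ X q) :
    EvC fun q => Ku n (X q) q := by
  have a1 := evKn hn X hX fun q => zero_le_one.trans (hp q)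
  have a2 : EvC fun q => q.c₀ ≤ 1 / 8 :=
    EvC.at_c₀ (fun _ t => t ≤ 1 / 8) fun _ => sml_le (by norm_num)
  have a3 := evZn hn (by norm_num : (0 : ℝ) < 1 / 2) (fun _ => 1) (fun _ => rfl) fun _ => le_rfl
  refine ((a1.and a2).and ((a3.and (H814.An.evZq hn)).and EvC.pos)).mono ?_
  rintro q ⟨⟨b1, b2⟩, ⟨b3, b4⟩, ⟨-, -, -, -, -, b5, -⟩, -⟩
  exact ⟨b1, hp q, b4, b3, b2, b5⟩

/-- **The cut-offs at the alive points**: `Cut` and `KZ2` for every cut-off `χ`. -/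
theorem cut_ev (hn : 1 ≤ n) (L : Cst → ℝ) (hL : ∀ q, 0 ≤ L q) : EvC fun q => ∀ d : Pk n,
    PkOk q d → ∀ z, Z2 q d z → z ∈ U2 q d ∧ Cn q d z ∧ ∀ (χ : VV n → ℝ) (K : ℝ),
      (∀ ν A η : ℝ, 0 < η → 2 * KO2 ν A ≤ K * η →
        Cut d.sx d.sy χ (kz q d) (Zx K q d χ) ν A η (d.E q z) (d.N q z) √(d.r2 z)
          √(d.r2 z * sq1 χ z) √(sqp χ z) z) ∧
      (cKZ (Fintype.card (Fin n)) (Fintype.card (Fin n)) (Kkb n q.ph) (4 * L q) ≤ K →
        KZ2 d.sx d.sy (frx d.s₁) (fry d.s₂) (d.W q) χ (zz (L q) q d) (ez q d) (Zx K q d χ) z) := by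
  refine (evKu hn (fun _ => 1) (fun _ => rfl) fun _ => le_rfl).mono fun q k d h z hz => ?_
  have c := k.cn h hz
  have hU := k.u2 h hz
  exact ⟨hU, c, fun χ K => ⟨fun ν A η hη hK => cut_pk c hη hK,
    fun hK => kz2_pk k.zq h hU c (hL q) hK⟩⟩

end Vale.Agent.P088.R2.H238.Z
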