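import Vale.Agent.P088.R2.H238.Z.KeP
import Vale.Agent.P088.R2.H850.E.RowWb
import Vale.Agent.P088.R2.H420.G.NB
import Vale.Agent.P088.R2.H870.Z2.Kz

/-!
# P088, stage 3, zone II: the margin `k` is at least one
-/

open Set Filter
open scoped ContDiff Topology Matrix

noncomputable section

namespace Vale.Agent.P088.R2.H238.Z

open Vale.Agent.P088.LR Vale.Agent.P088.HY
open Vale.Agent.P088.R2.H464.Cu (mid dif rq)
open Vale.Agent.P088.R2.H31.EP Vale.Agent.P088.R2.H455.E Vale.Agent.P088.R2.H850.E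
open Vale.Agent.P088.R2.H942.Pk (kz)

variable {n : ℕ}

theorem kz_eq' : (kz : Cst → Pk n → VV n → ℝ) = fun q d => d.kz q := rfl

/-- `1 ≤ k`. -/
theorem one_le_kz (hn : 1 ≤ n) : EvC fun q => ∀ d : Pk n, PkOk q d → ∀ z,
    d.ch q .z2a z ≠ 0 ∨ d.ch q .z2b z ≠ 0 → 1 ≤ kz q d z := by
  refine (ke hn (fun _ => 1) fun _ => rfl).mono fun q hq d h z hz => ?_
  refine le_trans ?_ (hq d h z hz).1
  have : 0 ≤ d.N q z ^ 2 / d.m q z ^ 2 := by positivity
  linarith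

theorem one_le_kza (hn : 1 ≤ n) : EvC fun q => ∀ d : Pk n, PkOk q d → ∀ z,
    d.ch q .z2a z ≠ 0 → 1 ≤ kz q d z :=
  (one_le_kz hn).mono fun _ hq d h z hz => hq d h z (Or.inl hz)

theorem one_le_kzb (hn : 1 ≤ n) : EvC fun q => ∀ d : Pk n, PkOk q d → ∀ z,
    d.ch q .z2b z ≠ 0 → 1 ≤ kz q d z :=
  (one_le_kz hn).mono fun _ hq d h z hz => hq d h z (Or.inr hz)

/-- **Row K.** -/
theorem rowK2 (hn : 1 ≤ n) {L : Lc n} (hL : L.kz = kz) : RowK2 L := by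
  refine ⟨fun _ => 1, fun _ _ => rfl, ((one_le_kzb hn).and EvC.pos).mono ?_⟩
  rintro q ⟨h1, ⟨-, -⟩, -, -, -, -, -, -, h8⟩
  refine ⟨one_pos, fun d h z hz => ?_⟩
  rw [hL]
  refine le_trans ?_ (h1 d h z hz)
  rw [div_le_one (by linarith)]
  exact h8

/-- **helper420's row.** -/
theorem lowK (hn : 1 ≤ n) {k : H867.EP.Zo} (hk : k = .z2a ∨ k = .z2b) :
    H420.G.LowK n k kz fun _ => 1 := by
  refine ((one_le_kz hn).and EvC.pos).mono ?_
  rintro q ⟨h1, ⟨-, -⟩, -, -, -, -, -, -, h8⟩ d h z hz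
  have h2 : 1 ≤ kz q d z := by
    refine h1 d h z ?_
    rcases hk with rfl | rfl
    · exact Or.inl hz
    · exact Or.inr hz
  refine le_trans ?_ h2
  show (1 : ℝ) / q.R ≤ 1
  rw [div_le_one (by linarith)]
  exact h8

end Vale.Agent.P088.R2.H238.Z
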