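import Vale.Agent.P088.R2.H606.EP.Al
import Vale.Agent.P088.R2.H509.EP.Lit2

/-!
# P088, stage 3, zone II: the points of the closed supports of `z2a`, `z2b`

The facts `Al` of helper606 hold on the closed supports.
-/

open Set Filter
open scoped ContDiff Topology Matrix

noncomputable section

namespace Vale.Agent.P088.R2.H238.Z

open Vale.Agent.P088.LR Vale.Agent.P088.HY
open Vale.Agent.P088.R2.H464.Cu (mid dif rq)
open Vale.Agent.P088.R2.H31.EP Vale.Agent.P088.R2.H606.EP
open Vale.Agent.P088.R2.H867.EP (Zo Near)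

variable {n : ℕ} {q : Cst} {d : Pk n} {z : VV n} {a X : ℝ}

/-- The closed support of `z2a` or `z2b`. -/
def Ts (q : Cst) (d : Pk n) (z : VV n) : Prop :=
  z ∈ tsupport (d.ch q .z2a) ∨ z ∈ tsupport (d.ch q .z2b)

/-- A closed condition on the support holds on the closed support. -/
theorem ts_of {f : VV n → ℝ} {P : VV n → Prop} (hP : IsClosed {z | P z})
    (h : ∀ z, f z ≠ 0 → P z) (hz : z ∈ tsupport f) : P z :=
  closure_minimal (fun w hw => h w hw) hP hz

/-- **The points of the closed supports.** -/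
theorem al_ts (h : PkOk q d) (m : Zn n a X q) (hz : Ts q d z) : Al a X q d z := by
  have sm := m.nr.sm d h
  have hM := m.M1
  have hX := m.X0
  have hρ := (m.nr.rb d h z).1
  -- continuity
  have cu : Continuous (d.u q) := sm.u.continuous
  have cE : Continuous (d.E q) := Real.continuous_exp.comp cu
  have c1 : ContDiff ℝ ∞ (deriv d.Φ) := (contDiff_infty_iff_deriv.1 h.top.sm).2
  have c2 : ContDiff ℝ ∞ (deriv (deriv d.Φ)) := (contDiff_infty_iff_deriv.1 c1).2
  have cN : Continuous (d.N q) := c1.continuous.comp cu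
  have cK : Continuous (d.Kf q) := c2.continuous.comp cu
  have cr : Continuous d.r2 := continuous_const.mul sm.rq.continuous
  have cm : Continuous (d.m q) := cE.mul cr
  have cp : Continuous fun z => d.N q z ^ (13 / 5 : ℝ) :=
    cN.rpow_const fun _ => Or.inr (by norm_num)
  have cx : Continuous fun z => d.m₁ q (d.u q z) := by
    have h0 : 0 ≤ q.σ / (q.CB * q.R) := by
      have := m.σ0
      have := m.CB0
      have := m.R0
      positivity
    exact (H932.EP.m1x_smooth h0 (d.ξ_is q)).continuous.comp cu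
  obtain ⟨k, hk, hk2, hts⟩ : ∃ k : Zo, Near k ∧ (k = .z2a ∨ k = .z2b) ∧
      z ∈ tsupport (d.ch q k) := by
    rcases hz with h1 | h1
    · exact ⟨.z2a, Or.inr (Or.inr (Or.inl rfl)), Or.inl rfl, h1⟩
    · exact ⟨.z2b, Or.inr (Or.inr (Or.inr (Or.inr rfl))), Or.inr rfl, h1⟩
  have z2 : ∀ w, d.ch q k w ≠ 0 → Z2 q d w := by
    rcases hk2 with rfl | rfl
    · exact fun w hw => Or.inl hw
    · exact fun w hw => Or.inr hw
  have hal : ∀ w, d.ch q k w ≠ 0 → Al a X q d w := fun w hw => al h m (z2 w hw)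
  have hta := m.nr.u_le h hk hts
  have hr4 : d.r2 z ≤ 4 * q.c₀ ^ 2 :=
    ts_of (isClosed_le cr continuous_const) (fun w hw => (hal w hw).r4) hts
  have hNa : d.N q z ≤ q.aC * d.E q z :=
    ts_of (isClosed_le cN (continuous_const.mul cE)) (fun w hw => (hal w hw).Na) hts
  have hu0 : 0 ≤ d.u q z :=
    ts_of (isClosed_le continuous_const cu) (fun w hw => (hal w hw).u0) hts
  have hNE : d.N q z ^ 2 ≤ a ^ 2 * (d.E q z * d.m q z) :=
    ts_of (isClosed_le (cN.pow 2) (continuous_const.mul (cE.mul cm)))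
      (fun w hw => (hal w hw).NE) hts
  have hmX : X ≤ d.m q z :=
    ts_of (isClosed_le continuous_const cm) (fun w hw => (hal w hw).mX) hts
  have hP := (m.nr.sm d h).cp
  have hN0 : ∀ w, 0 < d.N q w := fun w => N_pos h m.toNm _
  have hab : Z2ab q d z := by
    rcases hk2 with rfl | rfl
    · refine Or.inl ⟨?_, ?_⟩
      · exact ts_of (isClosed_le cE (continuous_const.mul cp))
          (fun w hw => sd_C hw (Or.inr rfl) hP (hN0 w)) hts
      · exact ts_of (isClosed_le (continuous_const.mul cK) cm) (fun w hw => sd_z2a hw hP) hts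
    · refine Or.inr ⟨?_, ?_⟩
      · exact ts_of (isClosed_le cp cE) (fun w hw => sd_B hw (Or.inr rfl) hP (hN0 w)) hts
      · exact ts_of (isClosed_le cx cm)
          (fun w hw => sd_z2b hw hP (m.nr.rb d h w).1) hts
  have hE : 0 < d.E q z := Real.exp_pos _
  have hr0 : 0 < d.r2 z := by
    by_contra hc
    have : d.m q z ≤ 0 := mul_nonpos_of_nonneg_of_nonpos hE.le (not_lt.1 hc)
    linarith
  have htb : d.u q z ≤ d.utb q := by
    unfold Pk.uta at hta
    unfold Pk.utb
    have := m.R0
    linarith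
  exact ⟨m.nr.Cds h hk hts, loc h m.toLm hr4 (by linarith) htb, hr4, hr0, hta, hNa, hu0,
    hNE, hmX, hab⟩

end Vale.Agent.P088.R2.H238.Z
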